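import Vale.Agent.P038.H71.Plan
import Vale.Agent.P038.H391.MF

/-!
# P038 (H249): no normal form with constant 1
-/

namespace Vale.Agent.P038.H249

open Finset Vale.Agent.P038.H139

universe u

/-- The closed out-neighbourhood. -/
noncomputable def Nc {V : Type u} [Fintype V] [DecidableEq V] (D : OGraph V) (a : V) : Finset V :=
  insert a (N1 D a)

variable {V : Type u} [Fintype V] [DecidableEq V] {D : OGraph V} {w : V → ℝ}

theorem nb_eq_cl (X : Finset V) : H391.nb (Nc D) X = cl D X := by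
  ext y
  rw [H391.mem_nb, mem_cl]
  constructor
  · rintro ⟨x, hx, hy⟩
    rw [Nc, Finset.mem_insert, mem_N1] at hy
    rcases hy with rfl | hy
    · exact Or.inl hx
    · exact Or.inr ⟨x, hx, hy⟩
  · rintro (h | ⟨x, hx, hy⟩)
    · exact ⟨y, h, by rw [Nc]; exact Finset.mem_insert_self _ _⟩
    · exact ⟨x, hx, by rw [Nc, Finset.mem_insert, mem_N1]; exact Or.inr hy⟩

theorem strictG (h : NFmin 1 D w) (X : Finset V) (hX : cl D X ≠ X) :
    H391.hh (Nc D) w (cl D X) < H391.hh (Nc D) w X := by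
  have hXc : X ⊆ cl D X := fun z hz => mem_cl.2 (Or.inl hz)
  have hL : H71.Lx D X = cl D X \ X := by
    ext z
    rw [H71.Lx, Finset.mem_sdiff, Finset.mem_sdiff, mem_outS, mem_cl]
    constructor
    · rintro ⟨h1, h2⟩
      exact ⟨Or.inr h1, h2⟩
    · rintro ⟨h1 | h1, h2⟩
      · exact absurd h1 h2
      · exact ⟨h1, h2⟩
  have hne : (∅ : Finset V) ⊂ H71.Lx D X := by
    rw [Finset.empty_ssubset, hL, Finset.sdiff_nonempty]
    exact fun h' => hX (Finset.Subset.antisymm h' hXc)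
  have h1 := H71.plan_lt h X ∅ hne
  have h2 : cl D (cl D X \ X) \ X = cl D (cl D X) \ X := by
    ext z
    rw [Finset.mem_sdiff, Finset.mem_sdiff, mem_cl, mem_cl]
    constructor
    · rintro ⟨h3 | ⟨y, hy, hyz⟩, h4⟩
      · exact ⟨Or.inl (Finset.mem_sdiff.1 h3).1, h4⟩
      · exact ⟨Or.inr ⟨y, (Finset.mem_sdiff.1 hy).1, hyz⟩, h4⟩
    · rintro ⟨h3 | ⟨y, hy, hyz⟩, h4⟩
      · exact ⟨Or.inl (Finset.mem_sdiff.2 ⟨h3, h4⟩), h4⟩
      · by_cases hyX : y ∈ X
        · exact ⟨Or.inl (Finset.mem_sdiff.2 ⟨mem_cl.2 (Or.inr ⟨y, hyX, hyz⟩), h4⟩), h4⟩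
        · exact ⟨Or.inr ⟨y, Finset.mem_sdiff.2 ⟨hy, hyX⟩, hyz⟩, h4⟩
  have h3 : cl D (∅ : Finset V) = ∅ := by
    ext z
    rw [mem_cl]
    simp
  unfold H71.dd at h1
  rw [hL, h2, h3] at h1
  have hXcc : X ⊆ cl D (cl D X) := fun z hz => mem_cl.2 (Or.inl (hXc hz))
  have h4 : H139.W w (cl D (cl D X) \ X) = H139.W w (cl D (cl D X)) - H139.W w X :=
    W_sdiff hXcc
  have h5 : H139.W w (cl D X \ X) = H139.W w (cl D X) - H139.W w X := W_sdiff hXc
  have h6 : H139.W w ((∅ : Finset V) \ X) = 0 := by simp [H139.W]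
  have h7 : H139.W w (∅ : Finset V) = 0 := by simp [H139.W]
  rw [h4, h5, h6, h7] at h1
  have e : ∀ S : Finset V, H391.W w S = H139.W w S := fun S => rfl
  unfold H391.hh
  rw [nb_eq_cl, nb_eq_cl, e, e, e]
  linarith

theorem no_nf [Nonempty V] (h0 : NF 1 D w) : False := by
  obtain ⟨D, w, h⟩ := exists_nfmin h0
  refine H391.no_strict (Nc D) (fun a => Finset.mem_insert_self _ _) ?_ w h.toNF.pos ?_ ?_
  · intro a b hb ha
    rw [Nc, Finset.mem_insert, mem_N1] at hb ha
    rcases hb with rfl | hb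
    · rfl
    · rcases ha with rfl | ha
      · rfl
      · exact absurd ha (D.asymm _ _ hb)
  · intro a
    by_contra hcon
    push Not at hcon
    have h2 : N1 D a = ∅ := by
      rw [Finset.eq_empty_iff_forall_notMem]
      intro z hz
      have h3 := hcon z (by rw [Nc]; exact Finset.mem_insert_of_mem hz)
      subst h3
      exact D.loopless _ (mem_N1.1 hz)
    have h1 := h.toNF.one a
    unfold Fw at h1
    rw [h2] at h1
    have h3 := W_nonneg h.toNF.nonneg (N2 D a)
    have h4 : H139.W w (∅ : Finset V) = 0 := by simp [H139.W]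
    rw [h4] at h1
    linarith
  · intro X hX
    rw [nb_eq_cl] at hX
    rw [nb_eq_cl]
    exact strictG h X hX

/-- Seymour's second neighbourhood conjecture, with nonnegative vertex weights. -/
theorem main {V : Type u} [Fintype V] [Nonempty V] (D : OGraph V) (w : V → ℝ)
    (hw : ∀ v, 0 ≤ w v) : ∃ v, ∑ u ∈ N1 D v, w u ≤ ∑ u ∈ N2 D v, w u := by
  classical
  obtain ⟨v, hv⟩ := snc_of_noNF (lam := 1) zero_le_one
    (fun V _ _ D w h => by classical exact no_nf h) D w hw
  exact ⟨v, by linarith⟩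

/-- Seymour's second neighbourhood conjecture. -/
theorem main_card {V : Type u} [Fintype V] [Nonempty V] (D : OGraph V) :
    ∃ v, (N1 D v).card ≤ (N2 D v).card := by
  obtain ⟨v, hv⟩ := main D (fun _ => (1 : ℝ)) (fun _ => zero_le_one)
  refine ⟨v, ?_⟩
  simpa using hv

end Vale.Agent.P038.H249
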